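import Vale.Agent.P032.H993.W.Lf
import Vale.Agent.P032.H993.W.Y2
import Vale.Agent.P032.H993.W.Y4
import Vale.Agent.P032.H993.W.Y3c
import Vale.Agent.P032.H993.W.Z1a
import Vale.Agent.P032.H993.W.Z1b
import Vale.Agent.P032.H993.W.Z1c
import Vale.Agent.P032.H993.W.Z1d
import Vale.Agent.P032.H993.W.Z5a
import Vale.Agent.P032.H993.W.Z5b
import Vale.Agent.P032.H993.W.Z5c
import Vale.Agent.P032.H993.W.Z5d
import Vale.Agent.P032.H993.W.Z5e
import Vale.Agent.P032.H993.W.Z6a
import Vale.Agent.P032.H993.W.Z6b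
import Vale.Agent.P032.H993.W.Z6c
import Vale.Agent.P032.H993.W.Z6d
import Vale.Agent.P032.H993.W.Z7a
import Vale.Agent.P032.H993.W.Z7b
import Vale.Agent.P032.H993.W.Z7c
import Vale.Agent.P032.H993.W.Z7d

/-!
# P032: a common point with the missing colours of two two-pair centres, wild, the certificates

`d1` (angle between 120 and 180 degrees, both common points), `d2` (120 degrees, both), `d6`, `d7`, `d8` (between 60 and
120, both), `d4` (60 degrees), `d5` (less than 60 degrees).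
-/

open Set Filter Topology Metric

noncomputable section

namespace Vale.Agent.P032.H993.BW

open Vale.Agent.P032.H61
open Vale.Agent.P032.H240.W (MdW lv Ho lv_ps lv_ng)
open Vale.Agent.P032.H820.K (nbf En ps ng)
open Vale.Agent.P032.H993.W (LawM chkM_sound)

theorem d1 {M : MdW 2 73 13 (nbf 2 TF.TB)} (hL : LawM M) (hF : ∀ c ∈ EF 1 ++ tyL 31 58, Ho M.bv c)
    (hc : ∀ l ∈ ([] : List ℕ), lv M.bv l) : False := by
  · rcases em (M.bv 302121072) with k1 | k1
    · rcases em (M.bv 436862976) with k2 | k2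
      · exact chkM_sound W.Z1a.oke W.Z1a.ok hL (leaf (cs := [ps 436862976, ps 302121072]) (F := EF 1 ++ tyL 31 58) (by decide +kernel) hF
          (fm (lv_ps.2 k2) (fm (lv_ps.2 k1) hc)))
      · exact chkM_sound W.Z1b.oke W.Z1b.ok hL (leaf (cs := [ng 436862976, ps 302121072]) (F := EF 1 ++ tyL 31 58) (by decide +kernel) hF
          (fm (lv_ng.2 k2) (fm (lv_ps.2 k1) hc)))
    · rcases em (M.bv 134217731) with k2 | k2
      · exact chkM_sound W.Z1c.oke W.Z1c.ok hL (leaf (cs := [ps 134217731, ng 302121072]) (F := EF 1 ++ tyL 31 58) (by decide +kernel) hF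
          (fm (lv_ps.2 k2) (fm (lv_ng.2 k1) hc)))
      · exact chkM_sound W.Z1d.oke W.Z1d.ok hL (leaf (cs := [ng 134217731, ng 302121072]) (F := EF 1 ++ tyL 31 58) (by decide +kernel) hF
          (fm (lv_ng.2 k2) (fm (lv_ng.2 k1) hc)))

theorem d5 {M : MdW 2 73 13 (nbf 2 TF.TB)} (hL : LawM M) (hF : ∀ c ∈ EF 5, Ho M.bv c)
    (hc : ∀ l ∈ ([] : List ℕ), lv M.bv l) : False := by
  · rcases em (M.bv 134217731) with k1 | k1
    · rcases em (M.bv 570490880) with k2 | k2
      · exact chkM_sound W.Z5a.oke W.Z5a.ok hL (leaf (cs := [ps 570490880, ps 134217731]) (F := EF 5) (by decide +kernel) hF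
          (fm (lv_ps.2 k2) (fm (lv_ps.2 k1) hc)))
      · rcases em (M.bv 33620033) with k3 | k3
        · exact chkM_sound W.Z5b.oke W.Z5b.ok hL (leaf (cs := [ps 33620033, ng 570490880, ps 134217731]) (F := EF 5) (by decide +kernel) hF
            (fm (lv_ps.2 k3) (fm (lv_ng.2 k2) (fm (lv_ps.2 k1) hc))))
        · exact chkM_sound W.Z5c.oke W.Z5c.ok hL (leaf (cs := [ng 33620033, ng 570490880, ps 134217731]) (F := EF 5) (by decide +kernel) hF
            (fm (lv_ng.2 k3) (fm (lv_ng.2 k2) (fm (lv_ps.2 k1) hc))))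
    · rcases em (M.bv 302055520) with k2 | k2
      · exact chkM_sound W.Z5d.oke W.Z5d.ok hL (leaf (cs := [ps 302055520, ng 134217731]) (F := EF 5) (by decide +kernel) hF
          (fm (lv_ps.2 k2) (fm (lv_ng.2 k1) hc)))
      · exact chkM_sound W.Z5e.oke W.Z5e.ok hL (leaf (cs := [ng 302055520, ng 134217731]) (F := EF 5) (by decide +kernel) hF
          (fm (lv_ng.2 k2) (fm (lv_ng.2 k1) hc)))

theorem d6 {M : MdW 2 73 13 (nbf 2 TF.TB)} (hL : LawM M) (hF : ∀ c ∈ EF 3 ++ tyL 32 58, Ho M.bv c)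
    (hc : ∀ l ∈ ([ng 134217731, ps 402653187, ps 537460739, ng 671678467] : List ℕ), lv M.bv l) : False := by
  · rcases em (M.bv 302514288) with k1 | k1
    · rcases em (M.bv 33685617) with k2 | k2
      · exact chkM_sound W.Z6a.oke W.Z6a.ok hL (leaf (cs := [ps 33685617, ps 302514288, ng 134217731, ps 402653187, ps 537460739, ng 671678467]) (F := EF 3 ++ tyL 32 58) (by decide +kernel) hF
          (fm (lv_ps.2 k2) (fm (lv_ps.2 k1) hc)))
      · exact chkM_sound W.Z6b.oke W.Z6b.ok hL (leaf (cs := [ng 33685617, ps 302514288, ng 134217731, ps 402653187, ps 537460739, ng 671678467]) (F := EF 3 ++ tyL 32 58) (by decide +kernel) hF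
          (fm (lv_ng.2 k2) (fm (lv_ps.2 k1) hc)))
    · rcases em (M.bv 302252144) with k2 | k2
      · exact chkM_sound W.Z6c.oke W.Z6c.ok hL (leaf (cs := [ps 302252144, ng 302514288, ng 134217731, ps 402653187, ps 537460739, ng 671678467]) (F := EF 3 ++ tyL 32 58) (by decide +kernel) hF
          (fm (lv_ps.2 k2) (fm (lv_ng.2 k1) hc)))
      · exact chkM_sound W.Z6d.oke W.Z6d.ok hL (leaf (cs := [ng 302252144, ng 302514288, ng 134217731, ps 402653187, ps 537460739, ng 671678467]) (F := EF 3 ++ tyL 32 58) (by decide +kernel) hF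
          (fm (lv_ng.2 k2) (fm (lv_ng.2 k1) hc)))

theorem d7 {M : MdW 2 73 13 (nbf 2 TF.TB)} (hL : LawM M) (hF : ∀ c ∈ EF 3 ++ tyL 32 58, Ho M.bv c)
    (hc : ∀ l ∈ ([ng 134217731, ps 402653187, ng 537460739, ps 671678467] : List ℕ), lv M.bv l) : False := by
  · rcases em (M.bv 268959827) with k1 | k1
    · exact chkM_sound W.Z7a.oke W.Z7a.ok hL (leaf (cs := [ps 268959827, ng 134217731, ps 402653187, ng 537460739, ps 671678467]) (F := EF 3 ++ tyL 32 58) (by decide +kernel) hF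
        (fm (lv_ps.2 k1) hc))
    · rcases em (M.bv 33685617) with k2 | k2
      · rcases em (M.bv 302383217) with k3 | k3
        · exact chkM_sound W.Z7b.oke W.Z7b.ok hL (leaf (cs := [ps 302383217, ps 33685617, ng 268959827, ng 134217731, ps 402653187, ng 537460739, ps 671678467]) (F := EF 3 ++ tyL 32 58) (by decide +kernel) hF
            (fm (lv_ps.2 k3) (fm (lv_ps.2 k2) (fm (lv_ng.2 k1) hc))))
        · exact chkM_sound W.Z7c.oke W.Z7c.ok hL (leaf (cs := [ng 302383217, ps 33685617, ng 268959827, ng 134217731, ps 402653187, ng 537460739, ps 671678467]) (F := EF 3 ++ tyL 32 58) (by decide +kernel) hF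
            (fm (lv_ng.2 k3) (fm (lv_ps.2 k2) (fm (lv_ng.2 k1) hc))))
      · exact chkM_sound W.Z7d.oke W.Z7d.ok hL (leaf (cs := [ng 33685617, ng 268959827, ng 134217731, ps 402653187, ng 537460739, ps 671678467]) (F := EF 3 ++ tyL 32 58) (by decide +kernel) hF
          (fm (lv_ng.2 k2) (fm (lv_ng.2 k1) hc)))

theorem d2 {M : MdW 2 73 13 (nbf 2 TF.TB)} (hL : LawM M) (hF : ∀ c ∈ EF 2 ++ tyL 5 58, Ho M.bv c) : False :=
  chkM_sound W.Y2.oke W.Y2.ok hL (leaf (cs := []) (F := EF 2 ++ tyL 5 58) (by decide +kernel) hF (by simp))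

theorem d4 {M : MdW 2 73 13 (nbf 2 TF.TB)} (hL : LawM M) (hF : ∀ c ∈ EF 4, Ho M.bv c) : False :=
  chkM_sound W.Y4.oke W.Y4.ok hL (leaf (cs := []) (F := EF 4) (by decide +kernel) hF (by simp))

/-- the blocking clauses -/
def blk : List (List ℕ) :=
  [[ps (En 3 0 0 0 1), ng (En 3 0 0 0 3), ng (En 3 0 9 0 4), ps (En 3 0 9 0 5)],
    [ps (En 3 0 0 0 1), ng (En 3 0 0 0 3), ps (En 3 0 9 0 4), ng (En 3 0 9 0 5)],
    [ng (En 3 0 0 0 1), ps (En 3 0 0 0 3)]]

theorem d8 {M : MdW 2 73 13 (nbf 2 TF.TB)} (hL : LawM M) (hF : ∀ c ∈ blk ++ (EF 3 ++ tyL 32 58), Ho M.bv c) : False :=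
  chkM_sound W.Y3c.oke W.Y3c.ok hL (leaf (cs := []) (F := blk ++ (EF 3 ++ tyL 32 58)) (by decide +kernel) hF (by simp))

end Vale.Agent.P032.H993.BW
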