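import Vale.Agent.P032.H993.W.Tb

/-!
# P032: the wild generator without zones and wedges

* `genM` : kinds `0..58` of `gen`, `59` (`MdE`), `62` (`MdP`, `MdJ`, walls of `MdG`), `63` (X-rule),
* `chkM_sound` : a certificate is a contradiction for models with `MdE`, `MdG`, `MdP`, `MdJ`.
-/

namespace Vale.Agent.P032.H993.W

open Vale.Agent.P032.H820.K (nbf fe)
open Vale.Agent.P032.H993 (MdE MdP MdJ)
open Vale.Agent.P032.H374 (MdG)
open Vale.Agent.P032.H240.W

/-- all kinds but zones and wedges -/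
def genM (K NP NW TB n : ℕ) : List ℕ :=
  bif Nat.ble (Nat.land n 63) 58 then gen K NP NW TB n else
  bif Nat.beq (Nat.land n 63) 59 then ge K NP NW TB (fe n) n else
  bif Nat.beq (Nat.land n 63) 62 then gp K NP NW TB (fe n) n else
  bif Nat.beq (Nat.land n 63) 63 then gx K NP NW TB n else gen K NP NW TB n

/-- all rules but wedges -/
structure LawM {K NP NW : ℕ} {nb : ℕ → ℕ → ℕ} (M : MdW K NP NW nb) : Prop where
  e : MdE M
  g : MdG M
  p : MdP M
  j : Nonempty (MdJ M)

section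
variable {K NP NW TB : ℕ} {M : MdW K NP NW (nbf K TB)} {v : ℕ → Prop}

theorem genM_ho (he : MdE M) (hg : MdG M) (hp : MdP M) {Jd : MdJ M} (ha : Ax M Jd) (hv : Ag M v) (n : ℕ) :
    Ho v (genM K NP NW TB n) := by
  unfold genM
  exact ho_bif (gen_ho hv _) (ho_bif (ge_ho he hv _ _) (ho_bif (gp_ho hg hp ha hv _ _)
    (ho_bif (gx_ho hg hv _) (gen_ho hv _))))

/-- **A certificate.** -/
theorem chkM_sound {e : List (List ℕ)} {t : ℕ → List ℕ} {B HB dA d : ℕ} {A C D H : List ℕ} (ho : okC e = true)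
    (h : chkU (genX (genM K NP NW TB) e t) B HB dA d A C D H = true) (hL : LawM M) (he : ∀ c ∈ e, Ho M.bv c) :
    False := by
  obtain ⟨Jd⟩ := hL.j
  exact chkU_sound h fun n => genX_ho (fun n => genM_ho (mde_setX hL.e) (mdg_setX hL.g) (mdp_setX hL.p) (exists_ax Jd)
    (ag_vx _ t) n) (ho_setX ho he) n

end

end Vale.Agent.P032.H993.W
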