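import Vale.Agent.P032.H993.W.Sta

/-!
# P032: a common point with the missing colours of two two-pair centres, wild, lists of clauses

* `subL` : a list of clauses is a part of another one (by computation), `leaf` : the external clauses of a certificate,
* `EF` : the clauses of two centres in the directions 6 and `t` from the common point.
-/

open Set Filter Topology Metric

noncomputable section

namespace Vale.Agent.P032.H993.BW

open Vale.Agent.P032.H61
open Vale.Agent.P032.H240.W (MdW lv Ho)
open Vale.Agent.P032.H820.K (nbf En ps ng)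

/-- equal lists -/
def eqL : List ℕ → List ℕ → Bool
  | [], [] => true
  | a :: l, b :: m => Nat.beq a b && eqL l m
  | _, _ => false

/-- member of a list -/
def memL (c : List ℕ) : List (List ℕ) → Bool
  | [] => false
  | d :: E => eqL c d || memL c E

theorem eqL_eq : ∀ {l m : List ℕ}, eqL l m = true → l = m
  | [], [], _ => rfl
  | a :: l, b :: m, h => by
    unfold eqL at h
    rw [Bool.and_eq_true, Nat.beq_eq] at h
    rw [h.1, eqL_eq h.2]
  | [], _ :: _, h => by simp [eqL] at h
  | _ :: _, [], h => by simp [eqL] at h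

theorem memL_mem {c : List ℕ} : ∀ {E : List (List ℕ)}, memL c E = true → c ∈ E
  | [], h => by simp [memL] at h
  | d :: E, h => by
    unfold memL at h
    rw [Bool.or_eq_true] at h
    rcases h with h | h
    · rw [eqL_eq h]; exact List.mem_cons_self
    · exact List.mem_cons_of_mem _ (memL_mem h)

/-- the list `e` is a part of the list `E` -/
def subL (e E : List (List ℕ)) : Bool := e.all fun c => memL c E

theorem subL_sub {e E : List (List ℕ)} (h : subL e E = true) {c : List ℕ} (hc : c ∈ e) : c ∈ E :=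
  memL_mem (List.all_eq_true.1 h c hc)

/-- the clauses of two centres in the directions 6 and `t` -/
def EF (t : ℕ) : List (List ℕ) :=
  tyL 0 58 ++ (tyL 7 15 ++ (tyL (t + 1) 53 ++ (exL 7 0 1 2 3 ++ (exL (t + 1) 4 0 5 2 ++
    (nsL TF.TB 7 0 1 ++ (nsL TF.TB 7 2 3 ++ (nsL TF.TB (t + 1) 4 0 ++ nsL TF.TB (t + 1) 5 2)))))))

/-- unit clauses -/
def uns (cs : List ℕ) : List (List ℕ) := cs.map fun l => [l]

theorem leaf {M : MdW 2 73 13 (nbf 2 TF.TB)} {F e : List (List ℕ)} {cs : List ℕ} (hs : subL e (uns cs ++ F) = true)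
    (hF : ∀ c ∈ F, Ho M.bv c) (hc : ∀ l ∈ cs, lv M.bv l) : ∀ c ∈ e, Ho M.bv c := by
  intro c hce
  rcases List.mem_append.1 (subL_sub hs hce) with h1 | h1
  · obtain ⟨l, hl, rfl⟩ := List.mem_map.1 h1
    exact ⟨l, List.mem_singleton_self _, hc l hl⟩
  · exact hF c h1

theorem fm {v : ℕ → Prop} {l : ℕ} {cs : List ℕ} (h : lv v l) (hc : ∀ l ∈ cs, lv v l) : ∀ l' ∈ l :: cs, lv v l' :=
  List.forall_mem_cons.2 ⟨h, hc⟩

end Vale.Agent.P032.H993.BW
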