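import Vale.Agent.P032.H993.W.Gm
import Vale.Agent.P032.H254.MkDZ
import Vale.Agent.P032.H993.MkE
import Vale.Agent.P032.H993.MkP
import Vale.Agent.P032.H993.MkJ
import Vale.Agent.P032.H374.MkG

/-!
# P032: a common point with the missing colours of two two-pair centres, wild, static part

* `sd_or` : at a point of the circle of a two-pair centre the colours of a pair are on different sides of the circle,
* `eg_pair`, `not_eg` : the graph of the pairs of a two-pair centre,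
* `exists_mw` : a model with all rules `LawM`, linked to the points,
* `tyL`, `exL`, `nsL` : the clauses of a palette, of the graph, of the sides.
-/

open Set Filter Topology Metric

noncomputable section

namespace Vale.Agent.P032.H993.BW

open Vale.Agent.P032.Six Vale.Agent.P032.Words Vale.Agent.P032.H892 Vale.Agent.P032.H913 Vale.Agent.P032.S5.H767
  Vale.Agent.P032.H61 Vale.Agent.P032.H357 Vale.Agent.P032.H357.MK Vale.Agent.P032.H556 Vale.Agent.P032.H515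
open Vale.Agent.P032.H993.MkW Vale.Agent.P032.H254
open Vale.Agent.P032.H240.W (MdW lv Ho ag_bv bT bPH bPV lv_ps lv_ng)
open Vale.Agent.P032.H820.K (nbf En ps ng ad)
open Vale.Agent.P032.H993.W (LawM)
open Vale.Agent.P032.H374 (mkMdG)

variable {U : Fin 6 → Set ℂ} {T : ℂ → Set (Fin 6)}

/-- **the colours of a pair are on different sides of the circle** -/
theorem sd_or (h : Irr U T) {z : ℂ} {a b c d : Fin 6} (hz : DPt T z a b c d) (φ : ℝ) :
    (Sd U z (pt z φ) a b ∨ Sd U z (pt z φ) b a) ∧ (Sd U z (pt z φ) c d ∨ Sd U z (pt z φ) d c) := by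
  obtain ⟨w, Z | Z⟩ := exists_Zn h hz
  · constructor
    · by_cases h1 : w.cod φ % 8 ≤ 2 ∨ 6 ≤ w.cod φ % 8
      · exact Or.inl (Z.sdA_in h h1)
      · exact Or.inr (Z.sdA_out h (by omega) (by omega))
    · by_cases h1 : w.cod φ % 8 ≤ 4
      · exact Or.inl (Z.sdC_in h h1)
      · exact Or.inr (Z.sdC_out h (by omega))
  · constructor
    · by_cases h1 : w.cod φ % 8 ≤ 2 ∨ 6 ≤ w.cod φ % 8
      · exact Or.inl (Z.sdA_in h h1)
      · exact Or.inr (Z.sdA_out h (by omega) (by omega))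
    · by_cases h1 : w.cod φ % 8 ≤ 4
      · exact Or.inr (Z.sdC_in h h1)
      · exact Or.inl (Z.sdC_out h (by omega))

theorem eg_pair {z : ℂ} {a b c d : Fin 6} (hz : DPt T z a b c d) : Eg T z a b ∧ Eg T z b a := by
  obtain ⟨g, hg⟩ := hz.arc1
  have hTg : T g = {a, b} := hg.2.self_of_nhdsWithin hg.1
  exact ⟨⟨hz.ab, g, hg.1, hTg⟩, ⟨hz.ab.symm, g, hg.1, by rw [hTg, Set.pair_comm]⟩⟩

theorem not_eg (h : Irr U T) (hM : Mn U T) {y : ℂ} {a b c d : Fin 6} (hz : DPt T y a b c d) {i j : Fin 6}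
    (hi : i = a ∨ i = b) (hj : j = c ∨ j = d) : ¬ Eg T y i j ∧ ¬ Eg T y j i := by
  have h4 : (T y).ncard = 4 := by
    rw [hz.pal, Set.ncard_insert_of_notMem (by simp [hz.ab, hz.ac, hz.ad]),
      Set.ncard_insert_of_notMem (by simp [hz.bc, hz.bd]), Set.ncard_pair hz.cd]
  have hiT : i ∈ T y := by
    rw [hz.pal]
    rcases hi with rfl | rfl
    exacts [Or.inl rfl, Or.inr (Or.inl rfl)]
  have hjT : j ∈ T y := by
    rw [hz.pal]
    rcases hj with rfl | rfl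
    exacts [Or.inr (Or.inr (Or.inl rfl)), Or.inr (Or.inr (Or.inr rfl))]
  have hja : j ≠ a ∧ j ≠ b := by
    rcases hj with rfl | rfl
    exacts [⟨hz.ac.symm, hz.bc.symm⟩, ⟨hz.ad.symm, hz.bd.symm⟩]
  obtain ⟨g, hg⟩ := hz.arc1
  have hTg : T g = {a, b} := hg.2.self_of_nhdsWithin hg.1
  have key : ∀ q, dist q y = 1 → T q = {i, j} → i ≠ j → False := by
    intro q hq hT hij
    rcases h.pairs_disjoint hM h4 hg.1 hq (by rw [hTg, hz.pal]; rintro m (rfl | rfl) <;> simp)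
      (by rw [hT]; rintro m (rfl | rfl); exacts [hiT, hjT]) (by rw [hTg]; exact Set.ncard_pair hz.ab)
      (by rw [hT]; exact Set.ncard_pair hij) with k1 | k1
    · rw [hTg, hT] at k1
      have : j ∈ ({a, b} : Set (Fin 6)) := by rw [k1]; exact Or.inr rfl
      rcases this with h4 | h4
      exacts [hja.1 h4, hja.2 h4]
    · rw [hTg, hT] at k1
      refine (Set.disjoint_left.1 k1) (a := i) ?_ (Or.inl rfl)
      rcases hi with rfl | rfl
      exacts [Or.inl rfl, Or.inr rfl]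
  refine ⟨?_, ?_⟩
  · rintro ⟨hne, q, hq, hT⟩
    exact key q hq hT hne
  · rintro ⟨hne, q, hq, hT⟩
    exact key q hq (by rw [hT, Set.pair_comm]) hne.symm

/-! ### the model -/

/-- the bits of the two graphs -/
def bE (T : ℂ → Set (Fin 6)) (σ : Equiv.Perm (Fin 6)) (Y : ℕ → ℂ) (x j k q : ℕ) : Prop :=
  if k = 4 then Eg T (Y x) (co σ j) (co σ q) else if k = 5 then Wl T (Y x) (co σ j) (co σ q) else False

theorem bitE_bE {σ : Equiv.Perm (Fin 6)} {Y : ℕ → ℂ} : BitE T σ Y (bE T σ Y) :=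
  ⟨fun x i j => by unfold bE; rw [if_pos rfl], fun x i j => by
    unfold bE
    rw [if_neg (by norm_num), if_pos rfl]⟩

/-- **a model with all rules** -/
theorem exists_mw (h : Irr U T) (hm : Mn U T) (hl : Ln U T) (z : ℂ) (σ : Equiv.Perm (Fin 6)) {u1 u : ℝ}
    (hu : u ∈ Ioo u1 (u1 + 1)) :
    ∃ (W : ℕ → Fin 13 → ℕ → ℕ → ℕ → Set (Fin 6)) (M : MdW 2 73 13 (nbf 2 TF.TB)), LawM M ∧
      Lk U T 2 (t2 u1 u) σ 73 13 (nbf 2 TF.TB) (Yt (t2 u1 u) 2 TF.TC z) W M ∧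
      ∀ x i j, M.B x i 4 j ↔ Eg T (Yt (t2 u1 u) 2 TF.TC z x) (co σ i) (co σ j) := by
  have A := tick_t2 hu
  have hY := hY_of_tchk (NP := 73) (TB := TF.TB) (TC := TF.TC) A z TF.tchk_ok
  obtain ⟨W, w, D⟩ := exists_sw h A (fun j : Fin 13 => Yt (t2 u1 u) 2 TF.TC z j.val)
  obtain ⟨J, hJ⟩ := exists_J h A σ hY
  obtain ⟨JE, hE⟩ := exists_JS h A σ (NW := 13) (by norm_num) hY (W := fun _ => W) (fun _ => D.wp)
  have hB := bitE_bE (T := T) (σ := σ) (Y := Yt (t2 u1 u) 2 TF.TC z)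
  refine ⟨fun _ => W, mkMdW h A σ (by norm_num) (by norm_num) (by norm_num) _ hY (W := fun _ => W)
    (w := fun _ => w) (fun _ => D) hJ (bE T σ (Yt (t2 u1 u) 2 TF.TC z)), ?_, ?_, ?_⟩
  · exact ⟨mkMdE h hm hl A σ _ _ _ _ hY (fun _ => D) hJ hB, mkMdG h hm A σ _ _ _ _ hY (fun _ => D) hJ hB,
      mkMdP h A σ _ _ _ _ hY (fun _ => D) hJ _, ⟨mkMdJ h A σ _ _ _ _ hY (fun _ => D) hJ _ hE⟩⟩
  · exact ⟨Iff.rfl, Iff.rfl, Iff.rfl, Iff.rfl, Iff.rfl, Iff.rfl, Iff.rfl⟩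
  · intro x i j
    exact hB.e x i j

/-! ### clauses -/

/-- the palette of the point `x` is the set of the bits of `m` -/
def tyL (x m : ℕ) : List (List ℕ) :=
  (List.range 6).map fun q => bif Nat.testBit m q then [ps (En 4 x 0 0 q)] else [ng (En 4 x 0 0 q)]

/-- the pairs of the point `x` are `a b` and `c d` -/
def exL (x a b c d : ℕ) : List (List ℕ) :=
  [[ng (En 14 x a 4 c)], [ng (En 14 x c 4 a)], [ng (En 14 x a 4 d)], [ng (En 14 x d 4 a)], [ng (En 14 x b 4 c)],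
    [ng (En 14 x c 4 b)], [ng (En 14 x b 4 d)], [ng (En 14 x d 4 b)], [ps (En 14 x a 4 b)], [ps (En 14 x b 4 a)],
    [ps (En 14 x c 4 d)], [ps (En 14 x d 4 c)]]

/-- the atoms of `NS2` -/
def nsA (y s i j : ℕ) : List ℕ :=
  [En 3 y s 0 i, En 1 y s 2 i, En 1 y (Nat.mod (Nat.add s 6) 12) 2 i, En 3 y (Nat.mod (Nat.add s 6) 12) 0 j]

/-- the colours `A`, `B` are on different sides of the circle about the point `x` -/
def nsL (TB x A B : ℕ) : List (List ℕ) :=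
  (List.range 12).flatMap fun s => bif Nat.ble 73 (nbf 2 TB x s) then [] else
    (nsA (nbf 2 TB x s) s A B).flatMap fun p => (nsA (nbf 2 TB x s) s B A).map fun q => [ng p, ng q]

section
variable {σ : Equiv.Perm (Fin 6)} {a : ℕ → ℝ} {Y : ℕ → ℂ} {W : ℕ → Fin 13 → ℕ → ℕ → ℕ → Set (Fin 6)}
  {TB : ℕ} {M : MdW 2 73 13 (nbf 2 TB)} (L : Lk U T 2 a σ 73 13 (nbf 2 TB) Y W M)
include L

theorem ho_ty {x m : ℕ} (hx : x < 73) (h : ∀ q < 6, (co σ q ∈ T (Y x) ↔ Nat.testBit m q = true)) :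
    ∀ c ∈ tyL x m, Ho M.bv c := by
  intro c hc
  obtain ⟨q, hq, rfl⟩ := List.mem_map.1 hc
  have hq6 := List.mem_range.1 hq
  have h1 : M.bv (En 4 x 0 0 q) ↔ co σ q ∈ T (Y x) := (bT (ag_bv M) (by omega)).trans L.t
  rw [h q hq6] at h1
  cases hb : Nat.testBit m q
  · exact ⟨_, List.mem_singleton_self _, lv_ng.2 (by rw [h1, hb]; simp)⟩
  · exact ⟨_, List.mem_singleton_self _, lv_ps.2 (h1.2 hb)⟩

theorem ho_ex (h : Irr U T) (hM : Mn U T) (hB : ∀ x i j, M.B x i 4 j ↔ Eg T (Y x) (co σ i) (co σ j)) {x p q r s : ℕ}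
    (hx : x < 73) (hp : p < 6) (hq : q < 6) (hr : r < 6) (hs : s < 6)
    (hz : DPt T (Y x) (co σ p) (co σ q) (co σ r) (co σ s)) : ∀ c ∈ exL x p q r s, Ho M.bv c := by
  have key : ∀ i < 6, ∀ j, M.bv (En 14 x i 4 j) ↔ Eg T (Y x) (co σ i) (co σ j) := fun i hi j =>
    (Vale.Agent.P032.H240.W.bB (ag_bv M) (by omega) (by omega) (by norm_num)).trans (hB x i j)
  have kp : ∀ i < 6, ∀ j, Eg T (Y x) (co σ i) (co σ j) → Ho M.bv [ps (En 14 x i 4 j)] := fun i hi j h1 =>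
    ⟨_, List.mem_singleton_self _, lv_ps.2 ((key i hi j).2 h1)⟩
  have kn : ∀ i < 6, ∀ j, ¬ Eg T (Y x) (co σ i) (co σ j) → Ho M.bv [ng (En 14 x i 4 j)] := fun i hi j h1 =>
    ⟨_, List.mem_singleton_self _, lv_ng.2 fun h2 => h1 ((key i hi j).1 h2)⟩
  intro c hc
  simp only [exL, List.mem_cons, List.not_mem_nil, or_false] at hc
  rcases hc with rfl | rfl | rfl | rfl | rfl | rfl | rfl | rfl | rfl | rfl | rfl | rfl
  · exact kn _ hp _ (not_eg h hM hz (Or.inl rfl) (Or.inl rfl)).1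
  · exact kn _ hr _ (not_eg h hM hz (Or.inl rfl) (Or.inl rfl)).2
  · exact kn _ hp _ (not_eg h hM hz (Or.inl rfl) (Or.inr rfl)).1
  · exact kn _ hs _ (not_eg h hM hz (Or.inl rfl) (Or.inr rfl)).2
  · exact kn _ hq _ (not_eg h hM hz (Or.inr rfl) (Or.inl rfl)).1
  · exact kn _ hr _ (not_eg h hM hz (Or.inr rfl) (Or.inl rfl)).2
  · exact kn _ hq _ (not_eg h hM hz (Or.inr rfl) (Or.inr rfl)).1
  · exact kn _ hs _ (not_eg h hM hz (Or.inr rfl) (Or.inr rfl)).2
  · exact kp _ hp _ (eg_pair hz).1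
  · exact kp _ hq _ (eg_pair hz).2
  · exact kp _ hr _ (eg_pair hz.swap).1
  · exact kp _ hs _ (eg_pair hz.swap).2

theorem ns_no (A : Tick 2 a) {x y t i j : ℕ} (hy : y < 73) (ht : t < 12) (e : Y y = Y x + dir (a t))
    (N : Nd U (Y x) 2 a t (co σ i) (co σ j)) : ∀ p ∈ nsA y t i j, ¬ M.bv p := by
  have e6 : Nat.mod (Nat.add t 6) 12 = ad 2 t (3 * 2) := by
    rw [ad_eq]; rfl
  have h6 : ad 2 t (3 * 2) < 256 := by rw [← e6]; exact lt_of_lt_of_le (Nat.mod_lt _ (by norm_num)) (by norm_num)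
  intro p hp
  simp only [nsA, List.mem_cons, List.not_mem_nil, or_false] at hp
  rw [e6] at hp
  rcases hp with rfl | rfl | rfl | rfl
  · rw [bPH (ag_bv M) (by omega) (by omega), L.ph, e]; exact N.far
  · rw [bPV (ag_bv M) (by omega) (by omega) (by norm_num), L.pv, e]; exact N.m1
  · rw [bPV (ag_bv M) (by omega) h6 (by norm_num), L.pv, e]; exact fun h1 => N.m2 ((cl_opp A).1 h1)
  · rw [bPH (ag_bv M) (by omega) h6, L.ph, e]; exact fun h1 => N.near ((hi_opp A).1 h1)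

theorem ho_ns (h : Irr U T) (A : Tick 2 a) (hY : Tab 2 a 73 (nbf 2 TB) Y) {x p q : ℕ} (hx : x < 73)
    (hs : ∀ φ, Sd U (Y x) (pt (Y x) φ) (co σ p) (co σ q) ∨ Sd U (Y x) (pt (Y x) φ) (co σ q) (co σ p)) :
    ∀ c ∈ nsL TB x p q, Ho M.bv c := by
  intro c hc
  obtain ⟨t, ht, h1⟩ := List.mem_flatMap.1 hc
  have ht12 := List.mem_range.1 ht
  cases hb : Nat.ble 73 (nbf 2 TB x t)
  · rw [hb, cond_false] at h1
    obtain ⟨i, hi, h2⟩ := List.mem_flatMap.1 h1
    obtain ⟨j, hj, rfl⟩ := List.mem_map.1 h2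
    have hn : nbf 2 TB x t < 73 := by
      by_contra h3
      rw [Nat.ble_eq_true_of_le (by omega)] at hb
      exact absurd hb (by simp)
    have e := hY x hx t (by omega) hn
    rcases hs (a t) with h3 | h3
    · exact ⟨_, List.mem_cons_self, lv_ng.2 (ns_no L A hn ht12 e (nd_of_sd h A h3) i hi)⟩
    · exact ⟨_, List.mem_cons_of_mem _ (List.mem_singleton_self _),
        lv_ng.2 (ns_no L A hn ht12 e (nd_of_sd h A h3) j hj)⟩
  · rw [hb, cond_true] at h1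
    exact absurd h1 List.not_mem_nil

end

end Vale.Agent.P032.H993.BW
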