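import Vale.Agent.P032.H61.TabF
import Vale.Agent.P032.H240.W.GenF

/-!
# P032: the table of the 73 points for the wild certificates
-/

namespace Vale.Agent.P032.H993.W

/-- the neighbours of the 73 points -/
abbrev TB : ℕ := Vale.Agent.P032.H61.TF.TB

end Vale.Agent.P032.H993.W
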